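import Vale.Agent.P004F.Pr.All

/-!
# P004F: presentations when the local relations are not minimal
-/

set_option linter.all false

noncomputable section

namespace Vale.Agent.P004F.Pn

open NumberField Pr
open Vale.Agent.P022 Vale.Agent.P022K.G2
open Vale.Agent.P022D.W (dec)
open Vale.Agent.P022E.GW (Ov)
open scoped Pointwise Classical

variable {R : Type} [CommRing R] {π : R →+* ZMod 2} {n ν κ : Type} [Fintype n] [DecidableEq n]
  [Fintype ν] [Fintype κ] {Γ : Subgroup GQ} {T : Finset ℕ} {a : GQ → Matrix n n R}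
  {P : κ → Ideal (𝓞 Qb)}

variable (Γ T a P) in
/-- `(Q, u, w)` is a presentation with its universal element -/
def Bj {μ g r : Type} [Fintype μ] [Fintype g] (b : κ → GQ → Matrix n μ R) (N : Matrix ν μ R)
    (Q : Matrix r g R) (u : GQ → Matrix n g R) (w : Matrix μ g R) : Prop :=
  ∀ (M : Type) [AddCommGroup M] [Module R M],
    Set.BijOn (fun y : g → M => (fun γ => ac (u γ) y, ac w y))
      {y | ac Q y = 0 ∧ ac (N * w) y = 0} {x | x ∈ Zs M Γ T a P b ∧ ac N x.2 = 0}

/-- one parameter is eliminated -/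
theorem Bj.step {μ μ' r : Type} [Fintype μ] [Fintype μ'] [DecidableEq μ'] {g : ℕ} {b : κ → GQ → Matrix n μ R}
    {N : Matrix ν μ R} {Q : Matrix r (Fin g) R} {u w} {A : Matrix μ μ' R} {V : Matrix μ' μ R}
    {e : Matrix μ Unit R} {d : Matrix Unit ν R} (h1 : V * A = 1) (h2 : A * V + e * d * N = 1)
    (h3 : d * N * A = 0) (h4 : d * N * e = 1) (h : Bj Γ T a P (fun i γ => b i γ * A) (N * A) Q u w) :
    Bj Γ T a P b N (.of fun t => Fin.cons 0 (Q t)) (fun γ => .of fun i => Fin.cons 0 (u γ i))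
      (.of fun j => Fin.cons (e j ()) ((A * w) j) : Matrix _ (Fin (g + 1)) R) := by
  intro M _ _
  have c {s : Type} (x : Matrix s Unit R) (B : Matrix s (Fin g) R) (y : Fin (g + 1) → M) :
      ac (Matrix.of fun j => Fin.cons (x j ()) (B j)) y = ac x (fun _ => y 0) + ac B (Fin.tail y) :=
    funext fun j => by simp [ac, Fin.sum_univ_succ, Fin.tail]
  have c0 {s : Type} (B : Matrix s (Fin g) R) (y : Fin (g + 1) → M) :
      ac (Matrix.of fun j => Fin.cons 0 (B j)) y = ac B (Fin.tail y) :=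
    (c 0 B y).trans (by rw [zero_ac, zero_add])
  have z {x : (GQ → n → M) × (μ' → M)} :
      x ∈ Zs M Γ T a P (fun i γ => b i γ * A) ↔ (x.1, ac A x.2) ∈ Zs M Γ T a P b :=
    and_congr_right' <| and_congr_right' <| and_congr_right' <| and_congr_right' <| by
      simp only [mul_ac]
  have y0 {y : Fin (g + 1) → M} {v : μ' → M} (k : ac N (ac e (fun _ => y 0) + ac A v) = 0) :
      (fun _ : Unit => y 0) = 0 := by
    have := congrArg (ac d) k
    rwa [← mul_ac, ac_add, ← mul_ac, ← mul_ac, h3, h4, zero_ac, add_zero, one_ac, ac_zero] at this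
  have k2 : Set.BijOn (fun x : (GQ → n → M) × (μ' → M) => (x.1, ac A x.2)) _
      {x | x ∈ Zs M Γ T a P b ∧ ac N x.2 = 0} := ⟨fun x hx => ⟨z.1 hx.1, (mul_ac _ _ _).symm.trans hx.2⟩,
    fun x (_ : x ∈ Zs M Γ T a P (fun i γ => b i γ * A) ∧ ac (N * A) x.2 = 0) x' _ k =>
      Prod.ext (Prod.mk.inj k).1 (by
        rw [← one_ac (R := R) x.2, ← one_ac (R := R) x'.2, ← h1, mul_ac, mul_ac, (Prod.mk.inj k).2]), fun x hx => by
      have : ac A (ac V x.2) = x.2 := by
        have := congrArg (ac · x.2) h2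
        simpa only [add_ac, mul_ac, one_ac, hx.2, ac_zero, add_zero] using this
      exact ⟨(x.1, ac V x.2), ⟨z.2 (this.symm ▸ hx.1), by rw [mul_ac, this, hx.2]⟩,
        Prod.ext rfl this⟩⟩
  have k1 : Set.BijOn (Fin.tail : (Fin (g + 1) → M) → _) {y | ac Q (Fin.tail y) = 0 ∧
      ac N (ac e (fun _ => y 0) + ac A (ac w (Fin.tail y))) = 0}
      {y | ac Q y = 0 ∧ ac (N * A * w) y = 0} := by
    refine ⟨fun y hy => ⟨hy.1, ?_⟩, fun y hy y' hy' k => ?_,
      fun t ht => ⟨Fin.cons 0 t, ⟨ht.1, ?_⟩, rfl⟩⟩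
    · have := hy.2
      rwa [y0 this, ac_zero, zero_add, ← mul_ac, ← mul_ac] at this
    · rw [← Fin.cons_self_tail y, ← Fin.cons_self_tail y', k, congrFun (y0 hy.2) (),
        congrFun (y0 hy'.2) ()]
    · rw [← ht.2, mul_ac, mul_ac]
      exact congrArg _ ((congrArg (· + _) (ac_zero e)).trans (zero_add _))
  simp only [mul_ac, c, c0]
  refine (k2.comp ((h M).comp k1)).congr fun y hy => Prod.ext rfl ?_
  rw [y0 hy.2, ac_zero, zero_add]; rfl

/-- the number of generators -/
theorem Bj.card {μ r : Type} [Fintype μ] {g : ℕ} {b : κ → GQ → Matrix n μ R}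
    {N : Matrix ν μ R} {Q : Matrix r (Fin g) R} {u w} (h : Bj Γ T a P b N Q u w) (m : Q.map π = 0)
    (hG : Gd Γ T a) : 2 ^ g ≤ Nat.card (Zs (ZMod 2) Γ T (fun γ => (a γ).map π) P
      fun i γ => (b i γ).map π) * 2 ^ Fintype.card ν := by
  have hk := ((bnd n Γ T _ (hG.map π)).choose_spec μ κ ∅ P (fun i g => (b i g).map π) (by simp)).1
  rw [Finset.union_empty] at hk
  letI : Module R F2 := Module.compHom _ π
  let f : (Fin g → F2) →+ (ν → F2) := .mk' (ac (N * w)) (ac_add _)
  have e (y : f.ker) : ac Q y.1 = 0 ∧ ac (N * w) y.1 = 0 :=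
    ⟨(show _ = ac (Q.map π) y.1 from rfl).trans (by rw [m, zero_ac]), y.2⟩
  rw [show 2 ^ g = Nat.card (Fin g → F2) by simp, ← AddSubgroup.card_mul_index f.ker,
    AddSubgroup.index_ker]
  exact Nat.mul_le_mul (Nat.card_le_card_of_injective (fun y => ⟨_, ((h F2).1 (e y)).1⟩)
    fun y y' c => Subtype.ext ((h F2).2.1 (e y) (e y') (congrArg Subtype.val c)))
    ((Nat.card_le_card_of_injective _ Subtype.val_injective).trans_eq (by simp))

/-- the pivot -/
theorem piv {μ : Type} [Fintype μ] (N : Matrix ν μ R) {i j x} (hx : x * N i j = 1) :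
    ∃ (A : Matrix μ {k // k ≠ j} R) (V : Matrix {k // k ≠ j} μ R) (e : Matrix μ Unit R)
      (d : Matrix Unit ν R), V * A = 1 ∧ A * V + e * d * N = 1 ∧ d * N * A = 0 ∧ d * N * e = 1 := by
  refine ⟨.of fun l k => if l = j then -x * N i k else if l = k then 1 else 0,
    .of fun k l => if l = k then 1 else 0, .of fun l _ => if l = j then 1 else 0,
    .of fun _ l => if l = i then x else 0, ?_, ?_, ?_, ?_⟩ <;> ext k l
  · simp [-mul_ite, Matrix.mul_apply, show k.1 ≠ j from k.2, Matrix.one_apply, Subtype.ext_iff]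
  · have s (f : μ → R) : ∑ m : {k // k ≠ j}, (if l = m then f m else 0) = if l = j then 0 else f l := by
      have := Fintype.sum_eq_add_sum_subtype_ne (fun m => if l = m then f m else 0) j
      split_ifs at this ⊢ with c <;> simp_all
    simp only [Matrix.add_apply, Matrix.mul_apply, Matrix.of_apply, mul_ite, mul_one, mul_zero,
      s fun m => if k = j then -x * N i m else if k = m then 1 else 0]
    rcases eq_or_ne l j with rfl | c1 <;> rcases eq_or_ne k l with rfl | c2 <;>
      simp_all [Matrix.one_apply]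
    split_ifs <;> simp
  · simp [Matrix.mul_apply, Fintype.sum_eq_add_sum_subtype_ne _ j, hx, ← Subtype.ext_iff,
      fun m : {k // k ≠ j} => show m.1 ≠ j from m.2]
  · simp [Matrix.mul_apply, hx]

variable [IsLocalRing R]

/-- reduction to minimal relations -/
theorem red {s : ℕ} {X : ∀ (μ : Type) [Fintype μ], (κ → GQ → Matrix n μ R) → Matrix ν μ R → Prop}
    (hX : ∀ (μ μ' : Type) [Fintype μ] [Fintype μ'] b N (A : Matrix μ μ' R), X μ b N →
      X μ' (fun i γ => b i γ * A) (N * A))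
    (H : ∀ (μ : Type) [Fintype μ] b N, X μ b N → N.map π = 0 → ∃ (g r : ℕ)
      (Q : Matrix (Fin r) (Fin g) R) (u : _) (w : _), Q.map π = 0 ∧ Bj Γ T a P b N Q u w ∧
        r + Fintype.card μ + s = g + Fintype.card κ * Fintype.card n) (m : ℕ) :
    ∀ (μ : Type) [Fintype μ] (b : κ → GQ → Matrix n μ R) (N : Matrix ν μ R), X μ b N →
    Fintype.card μ = m → ∃ (g r : ℕ) (Q : Matrix (Fin r) (Fin g) R) (u : _) (w : _), Q.map π = 0 ∧
      Bj Γ T a P b N Q u w ∧ r + Fintype.card μ + s = g + Fintype.card κ * Fintype.card n := by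
  induction m using Nat.strong_induction_on with | _ m ih => ?_
  intro μ _ b N h e
  by_cases c : N.map π = 0
  · exact H μ b N h c
  obtain ⟨i, j, c⟩ : ∃ i j, π (N i j) ≠ 0 := by simpa [← Matrix.ext_iff] using c
  obtain ⟨x, hx⟩ := ((IsLocalRing.isUnit_or_isUnit_one_sub_self (N i j)).resolve_right fun k =>
    (k.map π).ne_zero (by rw [map_sub, map_one,
      (show ∀ x : ZMod 2, x ≠ 0 → x = 1 by decide) _ c, sub_self])).exists_left_inv
  have cd : Fintype.card μ = Fintype.card {k // k ≠ j} + 1 := by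
    rw [← Fintype.card_option, Fintype.card_congr (Equiv.optionSubtypeNe j)]
  obtain ⟨A, V, d, d', h1, h2, h3, h4⟩ := piv N hx
  obtain ⟨g, r, Q, u, w, q, hb, e⟩ := ih _ (by omega) _ _ _ (hX μ _ b N A h) rfl
  refine ⟨g + 1, r, _, _, _, Matrix.ext fun t l => ?_, hb.step h1 h2 h3 h4, by omega⟩
  induction l using Fin.cases
  exacts [map_zero π, congrFun (congrFun q t) _]

end Vale.Agent.P004F.Pn
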