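import Vale.Agent.P004F.St
import Vale.Agent.P004F.Pn.Pn0

/-!
# P004F: the row `PRESN`
-/

set_option linter.all false

namespace Vale.Agent.P004F.Pn

open Pr
open Vale.Agent.P022D.W (dec)

theorem presn : PRESN := by
  intro R _ _ _ π μ ν κ _ _ _ Γ T a P b N h ov un ⟨i, o, d, k⟩ coc lc rel
  obtain ⟨g, r, Q, u, w, q, hb, e⟩ := red (π := π) (Γ := Γ) (T := T) (a := a) (P := P) (s := 2)
    (X := fun μ _ b N => (∀ i, ∀ g ∈ Γ ⊓ dec (P i), ∀ h ∈ Γ ⊓ dec (P i), ∃ β : Matrix (Fin 2) ν R,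
      b i (g * h) = b i g + a g * b i h + β * N) ∧ ∀ i, ∃ W : Subgroup P022.GQ,
      IsOpen (W : Set P022.GQ) ∧ ∀ g ∈ Γ ⊓ dec (P i), ∀ w ∈ Γ ⊓ dec (P i), w ∈ W →
        b i (g * w) = b i g)
    (fun _ _ _ _ b N A c => ⟨fun i g hg j hj => (c.1 i g hg j hj).imp fun β e => by
      simp only [e, Matrix.add_mul, Matrix.mul_assoc], fun i => (c.2 i).imp fun W e =>
        ⟨e.1, fun g hg j hj m => congrArg (· * A) (e.2 g hg j hj m)⟩⟩)
    (fun μ _ b N c m => by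
      obtain ⟨g, r, Q, u, w, p, e⟩ := pres R π _ μ ν κ Γ T a P b N (by simp) h
        ⟨ov, un, fun j c => k j c ▸ d, fun j l c c' => (k j c).trans (k l c').symm, c.1, c.2, m,
          .inr rel⟩
      exact ⟨g, r, Q, u, w, p.min, p.bij, e⟩) _ μ b N ⟨coc, lc⟩ rfl
  exact ⟨g, r, Q, u, w, hb, hb.card q h, e⟩

end Vale.Agent.P004F.Pn
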